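import Vale.Agent.P168.Assembly
import Vale.Agent.P168.Upper.Main
import Vale.Agent.P168.Lower.Cavity
import Vale.Agent.P168.Conc.Main

/-!
# P168: the pressure converges to the infimum of the trial functional
-/

namespace Vale.Agent.Results.P168.MezardParisi

/-- For even `K`, the pressure converges to the greatest lower bound of the trial values. -/
theorem result : Vale.Agent.P168.FormulaStmt :=
  Vale.Agent.P168.formulaStmt_of Vale.Agent.P168.concStmt Vale.Agent.P168.cavityStmt Vale.Agent.P168.upperStmt

end Vale.Agent.Results.P168.MezardParisi
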